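import Vale.Agent.P330Q.Final

namespace Vale.Agent.Results.P330.PCPQuasi

open Vale.Agent.P330

/-- The PCP theorem for PPAD with quasi-linear size. -/
theorem result : ∃ ε δ : ℝ, 0 < ε ∧ ε < 1 ∧ 0 < δ ∧ δ < 1 ∧
    ∃ (p : Polynomial ℕ) (R : EoL → GCirc) (D : EoL × List ℚ → List Bool) (K k : ℕ),
      (∃ M : Turing.TM2ComputableInPolyTime (fun I => bitsOf (natsI I))
        (fun G => bitsOf (natsG G)) R, ∀ j, Finite (M.tm.Γ j)) ∧
      (∃ M : Turing.TM2ComputableInPolyTime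
        (fun z : EoL × List ℚ => bitsOf (natsI z.1 ++ natsX z.2))
        (fun v : List Bool => bitsOf (v.map Bool.toNat)) D, ∀ j, Finite (M.tm.Γ j)) ∧
      ∀ I, EoLOK I → GCircOK (R I) ∧
        (bitsOf (natsG (R I))).length ≤
          K * (bitsOf (natsI I)).length * Nat.log 2 (bitsOf (natsI I)).length ^ k ∧
        (∃ x, Acceptable ε δ p (R I) x) ∧
        ∀ x, Acceptable ε δ p (R I) x → EoLSol I (D (I, x)) :=
  Vale.Agent.P330Q.goalS

end Vale.Agent.Results.P330.PCPQuasi
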